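import Vale.Agent.P287D.Pr.Lr
import Vale.Agent.P283R.Qa

/-!
# P283R: klt is an open condition on `Spec A`
-/

set_option linter.all false

open Set

noncomputable section

namespace Vale.Agent.P283R.Br

open Vale.Agent.P287D Vale.Agent.P297Z

variable {K : Type} [Field K] [Algebra ℂ K] {u : Finset K} {P Q : Pl K} {a : K}

theorem sec_adj (h : (1 : K) ∈ u) (ha : a ∈ Algebra.adjoin ℂ (u : Set K)) :
    ∃ k : ℝ, 0 < k ∧ Sec (k • mx u) a := by
  have n := mx_nonneg h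
  induction ha using Algebra.adjoin_induction with
  | mem x hx => exact ⟨1, one_pos, by rw [one_smul]; exact sec_of_mem hx⟩
  | algebraMap c =>
    refine ⟨1, one_pos, ?_⟩
    rw [one_smul, Algebra.algebraMap_eq_smul_one]
    exact (sec_of_mem h).smul c
  | add x y _ _ hx hy =>
    obtain ⟨k, k0, hk⟩ := hx
    obtain ⟨l, l0, hl⟩ := hy
    exact ⟨k + l, add_pos k0 l0,
      (hk.mono (smul_le_smul_of_nonneg_right (le_add_of_nonneg_right l0.le) n)).add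
        (hl.mono (smul_le_smul_of_nonneg_right (le_add_of_nonneg_left k0.le) n))⟩
  | mul x y _ _ hx hy =>
    obtain ⟨k, k0, hk⟩ := hx
    obtain ⟨l, l0, hl⟩ := hy
    exact ⟨k + l, add_pos k0 l0, add_smul k l (mx u) ▸ hk.mul hl⟩

theorem mx_eq_zero (h : (1 : K) ∈ u) : mx u P = 0 ↔ ∀ b ∈ u, b ∈ P.ring := by
  rw [mx_apply, Int.cast_eq_zero]
  refine ⟨fun e b hb => ?_, fun e => ?_⟩
  · by_cases b0 : b = 0
    · rw [b0]; exact zero_mem _
    have := P.le_mz hb b0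
    exact (Pl.ord_nonneg_iff _ b0).1 (by omega)
  · rw [P.mz_eq h one_ne_zero fun g hg _ => by
      rw [Pl.ord_one]; exact Pl.ord_nonneg_of_mem _ (e g hg), Pl.ord_one, neg_zero]

theorem adj_le (h : ∀ b ∈ u, b ∈ P.ring) (ha : a ∈ Algebra.adjoin ℂ (u : Set K)) : a ∈ P.ring :=
  (Algebra.adjoin_le (S := { P.ring.toSubring with algebraMap_mem' := P.con }) h) ha

/-- generalisation of the centres on the affine chart -/
theorem cle_aff (h : (1 : K) ∈ u) (c : CLe (mx u) Q P) (hQ : ∀ b ∈ u, b ∈ Q.ring) :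
    (∀ b ∈ u, b ∈ P.ring) ∧
      ∀ a ∈ Algebra.adjoin ℂ (u : Set K), P.rd a = 0 → Q.rd a = 0 := by
  have n := mx_nonneg h
  have q := (mx_eq_zero h).2 hQ
  have p : mx u P = 0 := le_antisymm (not_lt.1 fun k => (c _ (.refl n) k).ne' q) (n P)
  have m := (mx_eq_zero h).1 p
  refine ⟨m, fun a ha e => (Bm.rd_zero_iff Q (adj_le hQ ha)).2 ?_⟩
  by_cases a0 : a = 0
  · exact .inl a0
  have o := ((Bm.rd_zero_iff P (adj_le m ha)).1 e).resolve_left a0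
  obtain ⟨k, k0, s⟩ := sec_adj h ha
  have r := (s.rep a0).smul (inv_pos.2 k0).le
  rw [inv_smul_smul₀ k0.ne'] at r
  have := c _ r (by
    simp only [Pi.smul_apply, Pi.add_apply, smul_eq_mul, p, mul_zero, add_zero, dv_apply]
    exact mul_pos (inv_pos.2 k0) (Int.cast_pos.2 o))
  simp only [Pi.smul_apply, Pi.add_apply, smul_eq_mul, q, mul_zero, add_zero, dv_apply] at this
  exact .inr (Int.cast_pos.1 ((mul_pos_iff_of_pos_left (inv_pos.2 k0)).1 this))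

/-- **OPN** for every bound `0 ≤ t < 1` -/
theorem opn' {d : ℕ} (hd : 1 ≤ d) (hK : FF K d) {A : Subalgebra ℂ K} (hA : A.FG) (χ : A →ₐ[ℂ] ℂ)
    {Γ : BD K} (hΓ : Γ ∈ Car K) {t : ℝ} (t0 : 0 ≤ t) (t1 : t < 1)
    (h : ∀ P, Thr A χ P → t < dsc d Γ P + 1) :
    ∃ a : A, χ a ≠ 0 ∧ ∀ P : Pl K, (∀ b ∈ A, b ∈ P.ring) → P.rd a ≠ 0 → t < dsc d Γ P + 1 := by
  classical
  obtain ⟨n, rfl⟩ : ∃ n, d = n + 1 := ⟨d - 1, by omega⟩
  obtain ⟨u, rfl⟩ := hA
  have e : Algebra.adjoin ℂ ((insert 1 u : Finset K) : Set K) = Algebra.adjoin ℂ (u : Set K) := by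
    rw [Finset.coe_insert, Algebra.adjoin_insert_one]
  have o := Finset.mem_insert_self 1 u
  obtain ⟨T, hT⟩ := Pr.fin_chk hK (toFinite {Γ, mx (insert 1 u)})
    (forall_mem_insert.2 ⟨hΓ, forall_eq.2 (mx_mem_Car _)⟩)
  have k : ∀ P : Pl K, ∃ a : Algebra.adjoin ℂ (u : Set K), χ a ≠ 0 ∧
      ((∀ b ∈ Algebra.adjoin ℂ (u : Set K), b ∈ P.ring) → dsc (n + 1) Γ P + 1 ≤ t →
        P.rd a = 0) := fun P => by
    by_contra c
    refine c ⟨1, by simp, fun m b => (h P ⟨m, fun a z => by_contra fun w =>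
      c ⟨a, w, fun _ _ => z⟩⟩).not_ge b |>.elim⟩
  choose a a0 ha using k
  refine ⟨∏ P ∈ T, a P, by rw [map_prod]; exact Finset.prod_ne_zero_iff.2 fun P _ => a0 P,
    fun Q m z => not_le.1 fun b => z ?_⟩
  obtain ⟨P, p, c, l⟩ := (hT Γ (Submodule.subset_span (.inl rfl)) Q t t0).1 t1 b
  obtain ⟨x, y⟩ := cle_aff o (l _ (Submodule.subset_span (.inr rfl))) fun b hb =>
    m b (e.le (Algebra.subset_adjoin hb))
  rw [← Finset.mul_prod_erase T a p, Subalgebra.coe_mul,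
    Bm.rd_mul Q (m _ (a P).2) (m _ (Subtype.prop _)),
    y _ (e.ge (a P).2) (ha P (fun b hb => adj_le x (e.ge hb)) c), zero_mul]

/-- **OPN** -/
theorem opn {d : ℕ} (hd : 1 ≤ d) (hK : FF K d) {A : Subalgebra ℂ K} (hA : A.FG) (χ : A →ₐ[ℂ] ℂ)
    {Γ : BD K} (hΓ : Γ ∈ Car K) (h : ∀ P, Thr A χ P → -1 < dsc d Γ P) :
    ∃ a : A, χ a ≠ 0 ∧ ∀ P : Pl K, (∀ b ∈ A, b ∈ P.ring) → P.rd a ≠ 0 → -1 < dsc d Γ P :=
  let ⟨a, b, c⟩ := opn' hd hK hA χ hΓ le_rfl one_pos fun P p => by linarith [h P p]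
  ⟨a, b, fun P p q => by linarith [c P p q]⟩

end Vale.Agent.P283R.Br
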