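import Vale.Agent.P283R.Br.Bs
import Vale.Agent.P283R.Br.Opn
import Vale.Agent.P283R.Stm
import Vale.Agent.P283M.Br.Brg
import Vale.Agent.P283M.Br.Frm

/-!
# P283R: from the ring / place tier to the scheme statement
-/

set_option linter.all false

open Set CategoryTheory AlgebraicGeometry
open Vale.Agent.P289 Vale.Agent.P289.H219 Vale.Agent.P270L Vale.Agent.P283M.Am Vale.Agent.P299.G

noncomputable section

namespace Vale.Agent.P283R.Br

open Vale.Agent.P287D Vale.Agent.P283M Vale.Agent.P283M.Br Vale.Agent.P283M.Stm.Var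
open Vale.Agent.P283M.Stm (Contraction Pair HasKltComplement)
open Vale.Agent.P297Z

variable {X Z : Stm.Var} {f : X.X ⟶ Z.X} {p : Z.K ≃+* X.K} {d n m : ℕ} {h g : X.K}

theorem pl_eq {E : X.PrimeDiv} {P Q : Pl X.K} (e : Is (RingEquiv.refl X.K) E Q)
    (hP : Dom P.ring E.1) : Q = P := Pl.ext' (congrArg _
  (Pl.eq_of_le' (v := Q.toPlace) (w := P.toPlace) fun g hg => (hP g ((e g).1 hg)).1))

theorem mem_image_of_mem' {K : Type} [Field K] {s : Finset K} (b : K) (h : b ∈ s) :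
    b ∈ (fun b => b / 1) '' (s : Set K) := ⟨b, h, div_one b⟩

/-- the divisor of a form has a finite support -/
theorem form_fin (hK : FF X.K (n + 1)) {ω : DForm ℂ X.K (n + 1)} (fr : Frm ω h) :
    {E : X.PrimeDiv | formOrd ω (RingEquiv.refl X.K) E ≠ 0}.Finite := by
  classical
  let D : X.X → ℚ := ex fun E => formOrd ω (RingEquiv.refl X.K) E
  have k : ∀ W : X.X.Opens, IsAffineOpen W → Fs (cut W D) := fun W hW => by
    by_cases c : ∃ x, x ∈ W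
    swap
    · exact Set.finite_empty.subset fun y a => a.2 (if_neg fun b => c ⟨y, b⟩)
    obtain ⟨x, hx⟩ := c
    obtain ⟨T, t1, t2⟩ := (Am.str X).fg hW hx
    have va : VA W 0 (insert 1 T) := ⟨fun g hg y hy => (sc_zero (nrm X)).2 (by
      rcases Finset.mem_insert.1 hg with rfl | hg
      exacts [one_mem _, mem_reg.1 (t1 g hg) y hy]), fun y hy => ⟨1, Finset.mem_insert_self _ _, W,
        hW, hy, fun q => ⟨fun a => ⟨a, (gn_zero (nrm X)).2 (unAt_one (X := X) (x := q))⟩, And.left⟩,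
        fun a ha => Algebra.adjoin_mono
          (fun b hb => mem_image_of_mem' b (Finset.mem_insert_of_mem hb)) (t2 a ha)⟩⟩
    refine va.fs (Am.str X) (nrm X) hK (Z := cn X.K (n + 1) + dv h) (fun s hs => ?_)
      (Set.finite_empty.subset fun y ⟨_, a, b, P, c, e⟩ => b ?_)
    · refine ((Ba.Md.isB_cn hK s hs).union (Ba.isB_car hK (dv_mem_Car h) s hs)).subset
        fun P hP => by_contra fun k => hP.2 ?_
      rw [mem_union, not_or, mem_setOf, mem_setOf, not_and, not_and, not_not, not_not] at k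
      rw [Pi.add_apply, k.1 hP.1, k.2 hP.1, add_zero]
    · obtain ⟨Q, q, o⟩ := pl_of plc (X := X) ⟨y, a⟩
      obtain rfl := pl_eq q (dom_B c)
      have := fr _ _ _ Q q o
      rw [show cn X.K (n + 1) Q + Q.ord h = 0 from e] at this
      refine (ex_apply (X := X) ⟨y, a⟩).trans ?_
      exact_mod_cast this
  obtain ⟨T, hT⟩ := cover (⊤ : X.X.Opens) (fun W : X.X.affineOpens => (W.1 : Set X.X))
    (fun W => W.1.isOpen) fun x _ => by
      obtain ⟨_, ⟨V, hV, rfl⟩, hx, -⟩ :=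
        X.X.isBasis_affineOpens.exists_subset_of_mem_open (Set.mem_univ x) isOpen_univ
      exact ⟨⟨V, hV⟩, hx⟩
  refine ((T.finite_toSet.biUnion fun W _ => k W.1 W.2).preimage
    (Subtype.val_injective (p := fun y : Pt X.X => y.CodimOne)).injOn).subset fun E hE => ?_
  obtain ⟨W, a, b⟩ := hT E.1 trivial
  refine mem_biUnion a ⟨E.2, ?_⟩
  exact ((if_pos b).trans (ex_apply E)).trans_ne (Int.cast_ne_zero.2 hE)

theorem open_localEq (hK : FF X.K (n + 1)) {ω : DForm ℂ X.K (n + 1)} (fr : Frm ω h) (B : X.QDiv)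
    (m : ℕ) (g : X.K) : IsOpen {x : X.X | LocalEq (logCan ω B) m g x} := by
  have : Fs (ex (logCan ω B)) := by
    refine (((form_fin hK fr).union B.support.finite_toSet).image Subtype.val).subset
      fun y a => ⟨⟨y, a.1⟩, by_contra fun k => a.2 ?_, rfl⟩
    refine (ex_apply (X := X) ⟨y, a.1⟩).trans ?_
    have e1 : formOrd ω (RingEquiv.refl X.K) (Y := X) ⟨y, a.1⟩ = 0 :=
      not_not.1 fun e => k (.inl e)
    have e2 : B ⟨y, a.1⟩ = 0 := Finsupp.notMem_support_iff.1 fun e => k (.inr e)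
    change ((formOrd ω (RingEquiv.refl X.K) (Y := X) ⟨y, a.1⟩ : ℤ) : ℚ) + B ⟨y, a.1⟩ = 0
    rw [e1, e2, Int.cast_zero, add_zero]
  simpa only [localEq_iff] using (this.smul m).isOpen g⁻¹

theorem dsc_eq (m0 : 0 < m) (g0 : g ≠ 0) (h0 : h ≠ 0) (P : Pl X.K) :
    dsc d ((m : ℝ)⁻¹ • dv (g / h ^ m)) P = cn X.K d P + P.ord h - P.ord g / m := by
  have : (m : ℝ) ≠ 0 := Nat.cast_ne_zero.2 m0.ne'
  rw [dsc, Pi.sub_apply, Pi.smul_apply, dv_apply, Pl.ord_div _ g0 (pow_ne_zero _ h0), Pl.ord_pow,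
    smul_eq_mul]
  push_cast
  field_simp
  ring

theorem coef' {ω : DForm ℂ X.K d} {B : X.QDiv} (fr : Frm ω h) (m0 : 0 < m) (h0 : h ≠ 0)
    {E : X.PrimeDiv} (hg : LocalEq (logCan ω B) m g E.1) {P : Pl X.K} (hP : Dom P.ring E.1) :
    dsc d ((m : ℝ)⁻¹ • dv (g / h ^ m)) P = -(B E : ℝ) := by
  obtain ⟨Q, e, o⟩ := pl_of plc E
  obtain rfl := pl_eq e hP
  have a := hg.2 E specializes_rfl
  rw [o, logCan] at a
  have a' : (Q.ord g : ℝ) = m * (formOrd ω (RingEquiv.refl X.K) E + (B E : ℝ)) := by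
    exact_mod_cast a
  rw [dsc_eq m0 hg.1 h0, a', fr _ _ E Q e o,
    mul_div_cancel_left₀ _ (Nat.cast_ne_zero.2 m0.ne' : (m : ℝ) ≠ 0)]
  ring

theorem den (R : Finset ℚ) {r : ℚ} (h : r ∈ R) (h0 : 0 ≤ r) :
    ∃ k : ℕ, ((∏ a ∈ R, a.den : ℕ) : ℚ) * r = k := by
  obtain ⟨c, hc⟩ := Finset.dvd_prod_of_mem (fun a : ℚ => a.den) h
  obtain ⟨k, hk⟩ := Int.eq_ofNat_of_zero_le (Rat.num_nonneg.2 h0)
  refine ⟨c * k, ?_⟩
  rw [hc, Nat.cast_mul, Nat.cast_mul, mul_right_comm, Rat.den_mul_eq_num, hk, mul_comm]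
  rfl

/-- the map `S → ℂ(Y)` -/
def qm {S : Type} [CommRing S] [Algebra ℂ S] (I : Ideal S) : S →ₐ[ℂ] FractionRing (S ⧸ I) :=
  (IsScalarTower.toAlgHom ℂ (S ⧸ I) _).comp (Ideal.Quotient.mkₐ ℂ I)

/-- `ℂ(Y)` over `ℂ(X)` -/
abbrev alg {L : Type} [Field L] [Algebra ℂ L] (p : Z.K ≃+* X.K) (i : Z.K →ₐ[ℂ] L) :
    Algebra X.K L := (i.toRingHom.comp p.symm.toRingHom).toAlgebra

theorem alg_tower {L : Type} [Field L] [Algebra ℂ L] (i : Z.K →ₐ[ℂ] L)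
    (hc : ∀ c, p (algebraMap ℂ Z.K c) = algebraMap ℂ X.K c) :
    letI := alg p i; IsScalarTower ℂ X.K L :=
  letI := alg p i
  .of_algebraMap_eq fun c => by
    change _ = i (p.symm _)
    rw [← hc, p.symm_apply_apply, i.commutes]

/-- the presentation on the tier, with its data named -/
theorem quo' {c : ℕ} {z : Pt Z.X} {U : Z.X.Opens} (hU : IsAffineOpen U) (hz : z ∈ U) {S : Type}
    [CommRing S] [Algebra ℂ S] {I : Ideal S} [I.IsPrime] {G : Subgroup (S ≃ₐ[ℂ] S)}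
    {i : Z.K →ₐ[ℂ] FractionRing (S ⧸ I)} (l : Stm.IsQuot c {a : Z.K | ∀ x ∈ U, RegAt a x} I G i)
    {A : Subalgebra ℂ X.K} {χ : A →ₐ[ℂ] ℂ} (h : Bs f p U z A χ) :
    letI := alg p i; ∃ F : Fin c → S, Quo (qm I) F G A := by
  obtain ⟨dom, sm, -, ⟨ht, F, hF⟩, nor, fin, st, fr, inv⟩ := l
  let L := FractionRing (S ⧸ I)
  let j : (S ⧸ I) →ₐ[ℂ] L := IsScalarTower.toAlgHom ℂ _ _
  have hj : Function.Injective j := IsFractionRing.injective (S ⧸ I) L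
  let q : S →ₐ[ℂ] L := qm I
  have q0 : ∀ s, q s = 0 ↔ s ∈ I := fun s =>
    (map_eq_zero_iff j hj).trans Ideal.Quotient.eq_zero_iff_mem
  have hk : RingHom.ker q = I := Ideal.ext q0
  let _ : Algebra X.K L := alg p i
  have al : ∀ a, algebraMap X.K L a = i (p.symm a) := fun _ => rfl
  have rg : q.range = j.range := le_antisymm (by rintro _ ⟨s, rfl⟩; exact ⟨_, rfl⟩) (by
    rintro _ ⟨s, rfl⟩
    obtain ⟨s, rfl⟩ := Ideal.Quotient.mk_surjective s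
    exact ⟨s, rfl⟩)
  refine ⟨F, dom, sm, hk.trans hF, (congrArg Ideal.height hk).trans ht, fun b => ?_,
    fun b hb => ?_, fin,
    fun g hg s hs => (q0 _).2 (st g hg s ((q0 s).1 hs)),
    fun g hg g1 P hP a b => ht ▸ fr g hg g1 P hP (hk ▸ a) b, fun b => ?_, h.frK hU hz⟩
  · obtain ⟨s, t, t0, rfl⟩ := IsFractionRing.div_surjective (A := S ⧸ I) b
    obtain ⟨s, rfl⟩ := Ideal.Quotient.mk_surjective s
    obtain ⟨t, rfl⟩ := Ideal.Quotient.mk_surjective t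
    exact ⟨s, t, (map_ne_zero_iff j hj).2 (nonZeroDivisors.ne_zero t0), rfl⟩
  · rw [rg] at hb ⊢
    let e := AlgEquiv.ofInjective j hj
    have := hb.map_of_comp_eq (e.symm : j.range →+* S ⧸ I) (RingHom.id L)
      (RingHom.ext fun a => congrArg Subtype.val (e.apply_symm_apply a))
    exact IsIntegrallyClosed.isIntegral_iff.1 this
  · have e : ∀ s, (∀ g ∈ G, q (g s) = q s) ↔ ∀ g ∈ G, g s - s ∈ I := fun s =>
      forall₂_congr fun g _ => by rw [← q0, map_sub, sub_eq_zero]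
    refine Iff.trans (Iff.trans ⟨?_, ?_⟩ (inv b))
      (exists_congr fun s => and_congr_left' (e s).symm)
    · rintro ⟨a, ha, rfl⟩
      exact ⟨p.symm a, (h.memZ _).1 (by rwa [p.apply_symm_apply]), rfl⟩
    · rintro ⟨a, ha, rfl⟩
      exact ⟨p a, (h.memZ _).2 ha, by rw [al, p.symm_apply_apply]⟩

/-- the presentation on the tier -/
theorem quo {c : ℕ} {z : Pt Z.X} {U : Z.X.Opens} (hU : IsAffineOpen U) (hz : z ∈ U) {S : Type}
    [CommRing S] [Algebra ℂ S] (l : Stm.Quot c {a : Z.K | ∀ x ∈ U, RegAt a x} S)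
    {A : Subalgebra ℂ X.K} {χ : A →ₐ[ℂ] ℂ}
    (hc : ∀ c, p (algebraMap ℂ Z.K c) = algebraMap ℂ X.K c) (h : Bs f p U z A χ) :
    ∃ (L : Type) (_ : Field L) (_ : Algebra ℂ L) (_ : Algebra X.K L) (_ : IsScalarTower ℂ X.K L)
      (q : S →ₐ[ℂ] L) (F : Fin c → S) (G : Subgroup (S ≃ₐ[ℂ] S)), Quo q F G A := by
  obtain ⟨I, G, i, l⟩ := l
  have := l.prime
  obtain ⟨F, k⟩ := quo' hU hz l h
  exact ⟨FractionRing (S ⧸ I), _, _, alg p i, alg_tower i hc, qm I, F, G, k⟩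

/-- a complement from a function -/
theorem cpl {ω : DForm ℂ X.K (n + 1)} {B : X.QDiv} (hK : FF X.K (n + 1)) (fr : Frm ω h)
    (h0 : h ≠ 0) (hB : ∀ E, 0 ≤ B E) {U : Z.X.Opens} {z : Pt Z.X} (zU : z ∈ U) {N : ℕ}
    (N1 : 1 ≤ N) {φ : X.K} (φ0 : φ ≠ 0)
    (h1 : ∀ E : X.PrimeDiv, E.1 ∈ f ⁻¹ᵁ U → ∀ P : Pl X.K, Dom P.ring E.1 →
      dsc (n + 1) ((N : ℝ)⁻¹ • dv φ) P ≤ -(B E : ℝ))
    (h2 : ∀ x ∈ f ⁻¹ᵁ U, ∀ P : Pl X.K, Dom P.ring x → -1 < dsc (n + 1) ((N : ℝ)⁻¹ • dv φ) P) :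
    HasKltComplement f ω B N z := by
  classical
  have N0 : (N : ℝ) ≠ 0 := Nat.cast_ne_zero.2 (by omega)
  have N0' : (N : ℚ) ≠ 0 := Nat.cast_ne_zero.2 (by omega)
  have ψ0 : φ * h ^ N ≠ 0 := mul_ne_zero φ0 (pow_ne_zero _ h0)
  have oψ : ∀ P : Pl X.K, (P.ord (φ * h ^ N) : ℝ) = P.ord φ + N * P.ord h := fun P => by
    rw [Pl.ord_mul _ φ0 (pow_ne_zero _ h0), Pl.ord_pow]
    push_cast
    rfl
  let L : X.PrimeDiv → ℚ := fun E => ord (φ * h ^ N) E / N - formOrd ω (RingEquiv.refl X.K) E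
  have fL : (Function.support L).Finite := by
    refine ((fin X (φ * h ^ N)).union (form_fin hK fr)).subset fun E hE => ?_
    by_contra k
    rw [mem_union, not_or, mem_setOf, mem_setOf, not_not, not_not] at k
    exact hE (by simp [L, k.1, k.2])
  have eL : ∀ E : X.PrimeDiv, Finsupp.ofSupportFinite L fL E =
      ord (φ * h ^ N) E / N - formOrd ω (RingEquiv.refl X.K) E := fun E => rfl
  have lq : ∀ x, LocalEq (logCan ω (Finsupp.ofSupportFinite L fL)) N (φ * h ^ N) x :=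
    fun x => ⟨ψ0, fun E hE => by
      rw [logCan, eL E]
      field_simp
      ring⟩
  have ge : ∀ E : X.PrimeDiv, E.1 ∈ f ⁻¹ᵁ U → B E ≤ Finsupp.ofSupportFinite L fL E := by
    intro E c
    obtain ⟨Q, e, o⟩ := pl_of plc E
    have a := h1 E c Q e.dom
    rw [dsc, Pi.sub_apply, Pi.smul_apply, smul_eq_mul, dv_apply] at a
    rw [eL E, o, ← Rat.cast_le (K := ℝ)]
    push_cast
    rw [fr _ _ E Q e o, oψ, add_div, mul_div_cancel_left₀ _ N0, div_eq_inv_mul]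
    linarith
  refine ⟨U, Finsupp.ofSupportFinite L fL, φ * h ^ N, zU, ge,
    ⟨fun E c => (hB E).trans (ge E c), fun x _ => ⟨N, _, N1, lq x⟩,
      fun M E c m g m0 hg => ?_⟩, fun x _ => lq x⟩
  obtain ⟨⟨Q, e⟩, o⟩ := plc X M.Y M.pull (mdc X M).1 E
  have dm := (mdc X M).2 E Q e
  have a := h2 _ c Q dm
  have b := loc_uniq har plc hg (lq _) dm
  have m0' : (m : ℝ) ≠ 0 := Nat.cast_ne_zero.2 m0.ne'
  have b' : (Q.ord g : ℝ) / m = (N : ℝ)⁻¹ * Q.ord φ + Q.ord h := by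
    rw [oψ] at b
    field_simp
    linarith
  rw [dsc, Pi.sub_apply, Pi.smul_apply, smul_eq_mul, dv_apply] at a
  show (0 : ℝ) < _
  rw [fr _ _ E Q e (o Q e), o Q e, b']
  linarith

/-- **the factored glue**: the conclusion of the tier at the chart `(A, χ)` of any affine
neighbourhood `V` of `z` gives the complement -/
theorem core {ε : ℝ} {N : ℕ} {ω : DForm ℂ X.K d} {B : X.QDiv} {z : Pt Z.X} {V : Z.X.Opens}
    {A : Subalgebra ℂ X.K} {χ : A →ₐ[ℂ] ℂ} (hd : 1 ≤ d) (hdim : dimension X.str = d)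
    (hω : ω.Nonzero) (hB : Pair (ε ≤ ·) ⊤ ω B) (hf : Contraction f) (hp : Pb f p) (m0 : 0 < m)
    (hg : ∀ x : Pt X.X, x.map f = z → LocalEq (logCan ω B) m g x) (hV : IsAffineOpen V)
    (zV : z ∈ V) (bs : Bs f p V z A χ) (N1 : 1 ≤ N)
    (H : ∀ g : X.K, g ≠ 0 → (∀ P, Thr A χ P → ε ≤ 1 + dsc d ((m : ℝ)⁻¹ • dv g) P) →
      (∀ P, Thr A χ P → Prm A P → ∃ E : X.PrimeDiv, E.1 ∈ f ⁻¹ᵁ V ∧ Dom P.ring E.1 ∧
        dsc d ((m : ℝ)⁻¹ • dv g) P = -(B E : ℝ)) →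
      ∃ φ : X.K, φ ≠ 0 ∧ ∀ P, Thr A χ P →
        (Prm A P → (m : ℝ)⁻¹ * dv g P ≤ (N : ℝ)⁻¹ * dv φ P) ∧
          -1 < dsc d ((N : ℝ)⁻¹ • dv φ) P) :
    HasKltComplement f ω B N z := by
  obtain ⟨n, rfl⟩ : ∃ n, d = n + 1 := ⟨d - 1, by omega⟩
  have hK := ffd X _ hdim
  obtain ⟨h, h0, fr⟩ := frm X _ hK ω hω
  obtain ⟨x₀, hx₀⟩ := hf.2.2.1.surj z
  have g0 := (hg x₀ hx₀).1
  have g1 : g / h ^ m ≠ 0 := div_ne_zero g0 (pow_ne_zero _ h0)
  have ctr : ∀ P, Thr A χ P → ∃ x ∈ f ⁻¹ᵁ V, Dom P.ring x ∧ LocalEq (logCan ω B) m g x :=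
    fun P hP => let ⟨x, a, b, x', c, e⟩ := bs.fib hf hP
      ⟨x, a, b, g0, fun E hE => (hg x' e).2 E (hE.trans c)⟩
  obtain ⟨φ, φ0, hφ⟩ := H (g / h ^ m) g1
    (fun P hP => by
      obtain ⟨x, -, b, e⟩ := ctr P hP
      obtain ⟨M, E, rfl, i⟩ := mod X P x b
      have o := (plc X M.Y M.pull (mdc X M).1 E).2 P i
      have := hB.2.2 M E trivial m g m0 e
      rw [fr _ _ E P i o, o] at this
      rw [dsc_eq m0 g0 h0]
      exact this)
    (fun P hP k => by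
      obtain ⟨x, a, b, e⟩ := ctr P hP
      exact ⟨⟨x, bs.codim a b k⟩, a, b, coef' fr m0 h0 (E := ⟨x, bs.codim a b k⟩) e b⟩)
  have mR : (0 : ℝ) < m := Nat.cast_pos.2 m0
  have NR : (0 : ℝ) < N := Nat.cast_pos.2 N1
  have oq : ∀ P : Pl X.K, (P.ord (φ ^ m / (g / h ^ m) ^ N) : ℝ) =
      m * dv φ P - N * dv (g / h ^ m) P := fun P => by
    rw [Pl.ord_div _ (pow_ne_zero _ φ0) (pow_ne_zero _ g1), Pl.ord_pow, Pl.ord_pow]
    push_cast
    rfl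
  obtain ⟨a, ha, b, hb, e⟩ := bs.hart hf hp hV zV (g := φ ^ m / (g / h ^ m) ^ N)
    fun P hP k => by
      have := (hφ P hP).1 k
      rw [← Int.cast_nonneg_iff (R := ℝ), oq]
      rw [inv_mul_le_iff₀ mR, mul_left_comm, le_inv_mul_iff₀ NR] at this
      linarith
  obtain ⟨a', ha', hk⟩ := opn hd hK bs.fg χ (Γ := (N : ℝ)⁻¹ • dv φ)
    (Submodule.smul_mem _ _ (dv_mem_Car φ)) fun P hP => (hφ P hP).2
  obtain ⟨U, UV, zU, hU⟩ := bs.un (a' * b) (by rw [map_mul]; exact mul_ne_zero ha' hb)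
  have := hf.2.1
  let U' : Z.X.Opens := ⟨(f '' {x : X.X | LocalEq (logCan ω B) m g x}ᶜ)ᶜ,
    (f.isClosedMap _ (open_localEq hK fr B m g).isClosed_compl).isOpen_compl⟩
  have sub : ∀ x ∈ f ⁻¹ᵁ (U ⊓ U'), ∀ P : Pl X.K, Dom P.ring x →
      (∀ b ∈ A, b ∈ P.ring) ∧ P.rd a' ≠ 0 ∧ P.ord (b : X.K) = 0 ∧ (b : X.K) ≠ 0 :=
    fun x hx P hP => by
      have u := hU x hx.1
      have r := fun c hc => (bs.mem c).1 hc x (UV hx.1)
      have a0 : (a' : X.K) ≠ 0 := left_ne_zero_of_mul u.1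
      have b0 : (b : X.K) ≠ 0 := right_ne_zero_of_mul u.1
      have ua : UnAt (a' : X.K) x := ⟨a0, r _ a'.2, by
        have := reg_mul u.2.2 (r _ b.2)
        rwa [Subalgebra.coe_mul, mul_inv, inv_mul_cancel_right₀ b0] at this⟩
      have ub : UnAt (b : X.K) x := ⟨b0, r _ b.2, by
        have := reg_mul (r _ a'.2) u.2.2
        rwa [Subalgebra.coe_mul, mul_inv, mul_inv_cancel_left₀ a0] at this⟩
      exact ⟨fun c hc => (hP c (r c hc)).1, hP.rd ua, hP.ord ub, b0⟩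
  refine cpl hK fr h0 (fun E => hB.1 E trivial) (U := U ⊓ U')
    ⟨zU, fun ⟨x, a, b⟩ => a (hg x b)⟩ N1 φ0 (fun E hE P hP => ?_) fun x hx P hP =>
      hk P (sub x hx P hP).1 (sub x hx P hP).2.1
  obtain ⟨s1, -, s2, s3⟩ := sub _ hE P hP
  rw [← coef' fr m0 h0 (by_contra fun k => hE.2 ⟨E.1, k, rfl⟩) hP]
  have a0 : a ≠ 0 := fun k => div_ne_zero (pow_ne_zero m φ0) (pow_ne_zero N g1)
    (by rw [e, k, zero_div])
  have k := oq P
  have k' : (0 : ℝ) ≤ P.ord a := by exact_mod_cast Pl.ord_nonneg_of_mem _ (s1 a ha)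
  rw [e, Pl.ord_div _ a0 s3, s2, sub_zero] at k
  simp only [dsc, Pi.sub_apply, Pi.smul_apply, smul_eq_mul]
  refine sub_le_sub_left ?_ _
  rw [inv_mul_le_iff₀ mR, mul_left_comm, le_inv_mul_iff₀ NR]
  linarith

/-- **the glue** -/
theorem glue {s : ℕ → Prop} (q : Qa s) : Stm.Q s := by
  intro d hd ε hε R hR
  obtain ⟨N, N1, hN⟩ := q d (∏ a ∈ R, a.den) hd
    (Finset.prod_pos (s := R) fun a _ => Rat.den_pos a) ε hε
  refine ⟨N, N1, fun X Z f ω B z c hdim hω hB hR' hf ⟨p, hp⟩ ⟨m, g, m0, hg⟩ hz hc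
    ⟨U, S, _, _, hU, zU, l⟩ => ?_⟩
  obtain ⟨A, χ, bs⟩ := exists_bs hf hp hU zU hz
  obtain ⟨L, _, _, _, _, q, F, G, hq⟩ := quo hU zU l (Pb.cst hp hf.1) bs
  refine core hd hdim hω hB hf hp m0 hg hU zU bs N1 fun g g0 h1 h2 =>
    hN X.K L S c q F G A χ m g hc (ffd X _ hdim) hq m0 g0 h1 fun P hP k => ?_
  obtain ⟨E, -, -, e⟩ := h2 P hP k
  rw [e]
  by_cases z : B E = 0
  · exact ⟨0, by rw [z]; simp⟩
  obtain ⟨j, hj⟩ := den R (hR' _ z) (hB.1 _ trivial)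
  exact ⟨j, by rw [mul_neg, neg_inj]; exact_mod_cast hj⟩

end Vale.Agent.P283R.Br
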