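import Vale.Agent.P283R.Br.Glue

/-!
# P283R: the identity is a birational contraction
-/

set_option linter.all false

open Set CategoryTheory AlgebraicGeometry
open Vale.Agent.P289

namespace Vale.Agent.P283R.Br

open Vale.Agent.P283M Vale.Agent.P283M.Stm.Var
open Vale.Agent.P283M.Stm (Contraction Pair HasKltComplement)

variable {X : Stm.Var}

theorem ctr_id : Contraction (𝟙 X.X) :=
  ⟨Category.id_comp _, inferInstance, inferInstance, fun U => by
    rw [Scheme.Hom.id_app]; exact IsIso.id _⟩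

theorem pb_id : Pb (𝟙 X.X) (RingEquiv.refl X.K) := fun x a => by
  rw [Scheme.Hom.stalkMap_id]
  rfl

theorem bir_id : Stm.Birational (𝟙 X.X) := ⟨_, pb_id⟩

theorem loc_id {d : ℕ} {s : ℝ → Prop} {ω : DForm ℂ X.K d} {B : X.QDiv} (h : Pair s ⊤ ω B)
    (z : Pt X.X) :
    ∃ m g, 0 < m ∧ ∀ x : Pt X.X, x.map (𝟙 X.X) = z → LocalEq (logCan ω B) m g x :=
  let ⟨m, g, a, b⟩ := h.2.1 z trivial
  ⟨m, g, a, fun x e => (show x = z from e) ▸ b⟩

end Vale.Agent.P283R.Br
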