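import Vale.Agent.P283M.Br.Bas
import Vale.Agent.P283M.Br.Amp
import Vale.Agent.P283M.Br.Mdc
import Vale.Agent.P283R.Qa

/-!
# P283R: the affine chart of the base of a birational contraction
-/

set_option linter.all false

open Set CategoryTheory AlgebraicGeometry
open Vale.Agent.P289 Vale.Agent.P289.H219 Vale.Agent.P270L Vale.Agent.P283M.Am Vale.Agent.P299.G

noncomputable section

namespace Vale.Agent.P283R.Br

open Vale.Agent.P287D Vale.Agent.P283M Vale.Agent.P283M.Br Vale.Agent.P283M.Stm.Var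
open Vale.Agent.P283M.Stm (Contraction)
open Vale.Agent.P297Z

variable {X Z : Stm.Var} {f : X.X ⟶ Z.X} {p : Z.K ≃+* X.K}

/-- `p` is the pull back of the rational functions -/
def Pb (f : X.X ⟶ Z.X) (p : Z.K ≃+* X.K) : Prop := ∀ (x : Pt X.X) (a : St Z.X (x.map f)),
  p (toRat a) = toRat (val (f.stalkMap x) a)

theorem Pb.reg (h : Pb f p) {x : Pt X.X} {a : Z.K} (ha : RegAt a (Pt.map f x)) :
    RegAt (p a) x := by
  obtain ⟨a, rfl⟩ := ha
  exact ⟨_, (h x a).symm⟩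

theorem Pb.cst (h : Pb f p) (hf : f ≫ Z.str = X.str) (c : ℂ) :
    p (algebraMap ℂ Z.K c) = algebraMap ℂ X.K c := by
  let y := genericPoint X.X
  rw [const_germ Z (f y), const_germ X y, ← hf]
  refine (h y _).trans (congrArg (toK y) ?_)
  exact Scheme.Hom.germ_stalkMap_apply f ⊤ y trivial _

/-- `A` is the coordinate ring of the affine neighbourhood `V` of `z`, `χ` the evaluation at `z` -/
structure Bs (f : X.X ⟶ Z.X) (p : Z.K ≃+* X.K) (V : Z.X.Opens) (z : Pt Z.X)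
    (A : Subalgebra ℂ X.K) (χ : A →ₐ[ℂ] ℂ) : Prop where
  mem : ∀ a, a ∈ A ↔ ∀ x ∈ f ⁻¹ᵁ V, RegAt a x
  memZ : ∀ a, p a ∈ A ↔ ∀ y ∈ V, RegAt a y
  fg : A.FG
  ctr : ∀ P : Pl X.K, (∀ a ∈ A, a ∈ P.ring) → ∃ x ∈ f ⁻¹ᵁ V, Dom P.ring x
  sp : ∀ x ∈ f ⁻¹ᵁ V, (∀ a : A, χ a ≠ 0 → UnAt (a : X.K) x) → Pt.map f x ⤳ z
  un : ∀ a : A, χ a ≠ 0 → ∃ U : Z.X.Opens, U ≤ V ∧ z ∈ U ∧ ∀ x ∈ f ⁻¹ᵁ U, UnAt (a : X.K) x
  uz : ∀ a : A, χ a ≠ 0 ↔ UnAt (p.symm a) z

theorem exists_bs (hf : Contraction f) (hp : Pb f p) {V : Z.X.Opens} (hV : IsAffineOpen V)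
    {z : Pt Z.X} (hzV : z ∈ V) (hz : IsClosed ({z} : Set (Pt Z.X))) : ∃ A χ, Bs f p V z A χ := by
  classical
  obtain ⟨h1, _, h3, h4⟩ := hf
  obtain ⟨x₀, rfl⟩ := h3.surj z
  have : Nonempty ↑(f ⁻¹ᵁ V) := ⟨⟨x₀, hzV⟩⟩
  have : Nonempty V := ⟨⟨_, hzV⟩⟩
  have := h4 V
  let _ : Algebra ℂ Γ(Z.X, V) := (cst Z.str V).toAlgebra
  have : Algebra.FiniteType ℂ Γ(Z.X, V) := cst_finiteType Z.str hV
  let φ : Γ(Z.X, V) →ₐ[ℂ] X.K := { pl f V with
    commutes' := fun c => by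
      change X.X.germToFunctionField _ ((f.app V).hom (cst Z.str V c)) = constants X.str c
      rw [app_cst, germ_cst, h1] }
  have hm := hV.primeIdealOf_isMaximal_of_isClosed ⟨_, hzV⟩ hz
  set M := (hV.primeIdealOf ⟨_, hzV⟩).asIdeal with hM
  have inj : Function.Injective φ := pl_inj f V
  let e := AlgEquiv.ofInjective φ inj
  have : Nontrivial (Γ(Z.X, V) ⧸ M) := Ideal.Quotient.nontrivial_iff.2 hm.ne_top
  let r := AlgEquiv.ofBijective (Algebra.ofId ℂ (Γ(Z.X, V) ⧸ M))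
    ⟨(algebraMap ℂ _).injective, res_surj _ hm⟩
  let χ : φ.range →ₐ[ℂ] ℂ :=
    (r.symm.toAlgHom.comp (Ideal.Quotient.mkₐ ℂ M)).comp e.symm.toAlgHom
  have hχ : ∀ t, χ (e t) ≠ 0 ↔ f x₀ ∈ Z.X.basicOpen t := fun t => by
    have : χ (e t) = r.symm (Ideal.Quotient.mk M t) := by simp [χ]
    rw [this, Ne, map_eq_zero_iff _ r.symm.injective, Ideal.Quotient.eq_zero_iff_mem, hM,
      mem_primeIdealOf hV _ hzV, not_not, Scheme.mem_basicOpen _ _ _ hzV]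
  have pt : ∀ t, p (H594.secK V t) = φ t := fun t => by
    rw [← H594.toK_germ V (f x₀) hzV]
    exact (hp x₀ _).trans (pl_germ hzV t)
  refine ⟨φ.range, χ, fun a => ⟨?_, fun ha => exists_pl f V (mem_reg.2 ha)⟩,
    fun a => ⟨?_, fun ha => exists_pl f V (mem_reg.2 fun x hx => hp.reg (ha _ hx))⟩, ?_,
    fun P hP => ?_, fun x hx h => ?_, fun a ha => ?_, fun a => ?_⟩
  · rintro ⟨t, rfl⟩ x hx
    exact mem_reg.1 (pl_reg f V t) x hx
  · rintro ⟨t, ht⟩ y hy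
    rw [← p.injective ((pt t).trans ht)]
    exact mem_reg.1 (secK_reg V t) y hy
  · rw [← Algebra.map_top]
    exact (Algebra.FiniteType.out (R := ℂ) (A := Γ(Z.X, V))).map φ
  · obtain ⟨x, h5, h6⟩ := exists_dom hV P.ring fun t => hP _ ⟨t, rfl⟩
    exact ⟨x, h5, dom_B h6⟩
  · have hx' : f x ∈ V := hx
    refine specializes_of_le hV hzV hx' fun t ht => ?_
    rw [mem_primeIdealOf] at ht ⊢
    intro k
    refine ht ((Scheme.mem_basicOpen _ _ _ hx').1 ((un_pl hx' t).1 ?_))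
    exact h (e t) ((hχ t).2 ((Scheme.mem_basicOpen _ _ _ hzV).2 k))
  · obtain ⟨t, rfl⟩ := e.surjective a
    exact ⟨Z.X.basicOpen t, Z.X.basicOpen_le _, (hχ t).1 ha, fun x hx =>
      (un_pl (Z.X.basicOpen_le _ hx) t).2 hx⟩
  · obtain ⟨t, rfl⟩ := e.surjective a
    have : p.symm (e t : X.K) = H594.secK V t := p.symm_apply_eq.2 (pt t).symm
    rw [this, hχ]
    exact (un_secK t hzV).symm

/-- a point whose local ring is the ring of a place has codimension one -/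
theorem codim_of {P : Pl X.K} {x : Pt X.X} (h : Dom P.ring x) (k : ∀ g ∈ P.ring, RegAt g x) :
    x.CodimOne := by
  let e : X.X.presheaf.stalk x ≃+* P.ring := RingEquiv.ofBijective
    ((toK x).codRestrict P.ring fun a => (h _ ⟨a, rfl⟩).1)
    ⟨fun a b c => toK_injective x (congrArg Subtype.val c), fun ⟨g, hg⟩ =>
      let ⟨a, c⟩ := k g hg; ⟨a, Subtype.ext c⟩⟩
  have := P.dvr
  have k3 := (ringKrullDim_eq_of_ringEquiv e).trans (IsDiscreteValuationRing.ringKrullDim_eq_one _)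
  rw [ringKrullDim_stalk_eq_coheight] at k3
  exact_mod_cast k3

theorem un_of_rd {P : Pl X.K} {x : Pt X.X} (h : Dom P.ring x) {a : X.K} (ha : RegAt a x)
    (k : P.rd a ≠ 0) : UnAt a x := by
  have m := (h a ha).1
  have d := mt (Bm.rd_zero_iff P m).2 k
  rw [not_or, not_lt] at d
  exact ⟨d.1, ha, (h a ha).2 d.1 ((Pl.ord_eq_zero_iff P.toPlace d.1).1
    (le_antisymm d.2 (Pl.ord_nonneg_of_mem _ m))).2⟩

variable {V : Z.X.Opens} {z : Pt Z.X} {A : Subalgebra ℂ X.K} {χ : A →ₐ[ℂ] ℂ} {P : Pl X.K}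

/-- a place through `χ` has its centre in the closure of a point of the fibre -/
theorem Bs.fib (h : Bs f p V z A χ) (hf : Contraction f) (hP : Thr A χ P) :
    ∃ x ∈ f ⁻¹ᵁ V, Dom P.ring x ∧ ∃ x' : Pt X.X, x ⤳ x' ∧ Pt.map f x' = z := by
  obtain ⟨x, hx, d⟩ := h.ctr P hP.1
  have s := h.sp x hx fun a ha => un_of_rd d ((h.mem _).1 a.2 x hx) (mt (hP.2 a) ha)
  have := hf.2.1
  have c := f.isClosedMap _ (isClosed_closure (s := ({x} : Set X.X)))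
  obtain ⟨x', a, b⟩ := s.mem_closed c ⟨x, subset_closure rfl, rfl⟩
  exact ⟨x, hx, d, x', specializes_iff_mem_closure.2 a, b⟩

theorem Bs.codim (h : Bs f p V z A χ) {x : Pt X.X} (hx : x ∈ f ⁻¹ᵁ V) (d : Dom P.ring x)
    (k : Prm A P) : x.CodimOne := codim_of d fun g hg => by
  obtain ⟨a, ha, b, hb, b0, rfl⟩ := k g hg
  rw [div_eq_mul_inv]
  exact reg_mul ((h.mem _).1 ha x hx) (un_of_rd d ((h.mem _).1 hb x hx) b0).2.2

theorem Bs.frac (h : Bs f p V z A χ) (hV : IsAffineOpen V) {y : Pt Z.X} (hy : y ∈ V) {g : X.K}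
    (hg : RegAt (p.symm g) y) : ∃ a ∈ A, ∃ b ∈ A, UnAt (p.symm b) y ∧ g = a / b := by
  obtain ⟨b, hb, u, hc⟩ := Am.frac hV hy hg
  refine ⟨p (b * p.symm g), (h.memZ _).2 (mem_reg.1 hc), p b, (h.memZ _).2 (mem_reg.1 hb),
    by rw [p.symm_apply_apply]; exact u, ?_⟩
  rw [map_mul, p.apply_symm_apply, mul_div_cancel_left₀ _ ((map_ne_zero p).2 u.1)]

theorem Bs.frK (h : Bs f p V z A χ) (hV : IsAffineOpen V) (hz : z ∈ V) (g : X.K) :
    ∃ a ∈ A, ∃ b ∈ A, b ≠ 0 ∧ g = a / b :=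
  let ⟨a, ha, b, hb, u, e⟩ := h.frac hV (y := genericPoint Z.X)
    ((genericPoint_specializes z).mem_open V.isOpen hz) (g := g) (S.mem_loc_gen _)
  ⟨a, ha, b, hb, (map_ne_zero p.symm).1 u.1, e⟩

/-- **Hartogs** at `χ` -/
theorem Bs.hart (h : Bs f p V z A χ) (hf : Contraction f) (hp : Pb f p) (hV : IsAffineOpen V)
    (hz : z ∈ V) {g : X.K} (k : ∀ P, Thr A χ P → Prm A P → 0 ≤ P.ord g) :
    ∃ a ∈ A, ∃ b : A, χ b ≠ 0 ∧ g = a / b := by
  have r : RegAt (p.symm g) z := har Z _ z fun E hE => by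
    obtain ⟨⟨Q, e⟩, o⟩ := plc X Z p.symm (fun c => p.symm_apply_eq.2 (hp.cst hf.1 c).symm) E
    have hEV : E.1 ∈ V := hE.mem_open V.isOpen hz
    have rd : ∀ b : X.K, UnAt (p.symm b) E.1 → Q.rd b ≠ 0 := fun b u k => by
      have b0 : b ≠ 0 := (map_ne_zero p.symm).1 u.1
      have m := (e b).2 u.2.1
      have m' := (e b⁻¹).2 (by rw [map_inv₀]; exact u.2.2)
      rcases (Bm.rd_zero_iff Q m).1 k with c | c
      · exact b0 c
      · exact c.ne' (Pl.ord_unit _ m m')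
    rw [o Q e]
    refine k Q ⟨fun a ha => (e a).2 ((h.memZ _).1 (by rwa [p.apply_symm_apply]) _ hEV),
      fun a ha => by_contra fun c => ?_⟩ fun a ha => ?_
    · have u := (h.uz a).1 c
      exact rd a ⟨u.1, reg_gen hE u.2.1, reg_gen hE u.2.2⟩ ha
    · obtain ⟨c, hc, b, hb, u, k⟩ := h.frac hV hEV ((e a).1 ha)
      exact ⟨c, hc, b, hb, rd b u, k⟩
  obtain ⟨a, ha, b, hb, u, e⟩ := h.frac hV hz r
  exact ⟨a, ha, ⟨b, hb⟩, (h.uz _).2 u, e⟩

end Vale.Agent.P283R.Br
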