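import Vale.Agent.P283R.Br.Lc2
import Vale.Agent.P283R.Mi.St

/-!
# P283R: the glue from block MIN
-/

namespace Vale.Agent.P283R.Br

theorem qn_of (h : Mi.Qu) : Qn := fun d Q a b ε e =>
  (h d Q a b ε e).imp fun _ k => ⟨k.1, fun c K L S _ _ _ _ _ _ _ _ => k.2 K L S c⟩

/-- **the glue**, `n` independent of the codimension -/
theorem glueM (h : Mi.Qu) : Stm.Qu := glueU (qn_of h)

end Vale.Agent.P283R.Br
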