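import Vale.Agent.P283R.Br.Glue
import Vale.Agent.P283R.Qb
import Vale.Agent.P283R.Stm2

/-!
# P283R: from the tier to the scheme statement, complete intersections
-/

set_option linter.all false

open Set CategoryTheory AlgebraicGeometry
open Vale.Agent.P289 Vale.Agent.P289.H219 Vale.Agent.P270L Vale.Agent.P283M.Am Vale.Agent.P299.G

noncomputable section

namespace Vale.Agent.P283R.Br

open Vale.Agent.P287D Vale.Agent.P283M Vale.Agent.P283M.Br Vale.Agent.P283M.Stm.Var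
open Vale.Agent.P283M.Stm (Contraction Pair HasKltComplement)
open Vale.Agent.P297Z

section

variable {K L S : Type} [Field K] [Algebra ℂ K] [Field L] [Algebra ℂ L] [Algebra K L]
  [IsScalarTower ℂ K L] [CommRing S] [Algebra ℂ S] {c : ℕ} {q : S →ₐ[ℂ] L} {F : Fin c → S}
  {G : Subgroup (S ≃ₐ[ℂ] S)} {A : Subalgebra ℂ K}

/-- a point of `Y` over `χ` -/
theorem exists_over (h : Quo q F G A) (χ : A →ₐ[ℂ] ℂ) : ∃ y : Ideal S, y.IsPrime ∧
    ∀ (a : A) (s : S), algebraMap K L a = q s → χ a = 0 → s ∈ y := by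
  classical
  have := h.fin
  have := Fintype.ofFinite G
  have tr : ∀ s : S, ∃ a : A, algebraMap K L a = q (∑ γ : G, γ.1 s) := fun s => by
    obtain ⟨a, ha, b⟩ := (h.inv _).2 ⟨∑ γ : G, γ.1 s, fun g hg => by
      rw [map_sum g]
      exact congrArg q (Fintype.sum_equiv (Equiv.mulLeft (⟨g, hg⟩ : G)) _ _ fun _ => rfl), rfl⟩
    exact ⟨⟨a, ha⟩, b⟩
  choose t ht using tr
  have ext : ∀ {a b : A}, algebraMap K L a = algebraMap K L b → a = b := fun e =>
    Subtype.ext ((algebraMap K L).injective e)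
  let T : Ideal S :=
    { carrier := {s | ∀ w, χ (t (w * s)) = 0}
      add_mem' := fun {a b} ha hb w => by
        have : t (w * (a + b)) = t (w * a) + t (w * b) := ext (by
          rw [Subalgebra.coe_add, map_add, ht, ht, ht, ← map_add, ← Finset.sum_add_distrib]
          simp only [mul_add, map_add])
        rw [this, map_add, ha, hb, add_zero]
      zero_mem' := fun w => by
        have : t (w * 0) = 0 := ext (by simp [ht])
        rw [this, map_zero]
      smul_mem' := fun v a ha w => by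
        rw [smul_eq_mul, ← mul_assoc]
        exact ha _ }
  have ne : T ≠ ⊤ := (Ideal.ne_top_iff_one _).2 fun e => by
    have a := e 1
    have : t (1 * 1) = (Fintype.card G : A) := ext (by simp [ht])
    rw [this, map_natCast] at a
    exact Fintype.card_ne_zero (Nat.cast_eq_zero.1 a)
  obtain ⟨y, hy, le⟩ := T.exists_le_maximal ne
  refine ⟨y, hy.isPrime, fun a s e a0 => le fun w => ?_⟩
  obtain ⟨s', k, e'⟩ := (h.inv (q s)).1 ⟨a, a.2, e⟩
  have fx : ∀ γ : G, q (γ.1 s) = q s := fun γ => by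
    have := h.stab γ.1 γ.2 (s - s') (by rw [map_sub, e', sub_self])
    rw [map_sub, map_sub, sub_eq_zero] at this
    rw [this, k _ γ.2, e']
  have : t (w * s) = t w * a := ext (by
    rw [Subalgebra.coe_mul, map_mul, ht, ht, e, map_sum, map_sum, Finset.sum_mul]
    exact Finset.sum_congr rfl fun γ _ => by rw [map_mul, map_mul, fx])
  rw [this, map_mul, a0, mul_zero]

end

variable {X Z : Stm.Var} {f : X.X ⟶ Z.X} {p : Z.K ≃+* X.K} {V : Z.X.Opens} {z : Pt Z.X}
  {A : Subalgebra ℂ X.K} {χ : A →ₐ[ℂ] ℂ} {P : Pl X.K}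

theorem Pb.un (h : Pb f p) {x : Pt X.X} {a : Z.K} (ha : RegAt a (Pt.map f x))
    (k : UnAt (p a) x) : RegAt a⁻¹ (Pt.map f x) := by
  obtain ⟨a, rfl⟩ := ha
  obtain ⟨k0, -, b, hb⟩ := k
  rw [h x a] at k0 hb
  have u : IsUnit (val (f.stalkMap x) a) := .of_mul_eq_one b (toK_injective x (by
    rw [map_mul, map_one]
    exact (congrArg (_ * ·) hb).trans (mul_inv_cancel₀ k0)))
  obtain ⟨v, rfl⟩ := (isUnit_map_iff (f.stalkMap x).hom a).1 u
  exact ⟨v⁻¹.1, map_units_inv (toK (f x)) v⟩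

/-- the prime divisor of the base under a prime place -/
theorem Bs.down (h : Bs f p V z A χ) (hf : Contraction f) (hp : Pb f p) {x : Pt X.X}
    (hx : x ∈ f ⁻¹ᵁ V) (d : Dom P.ring x) (hP : Thr A χ P) (k : Prm A P) :
    ∃ y : Z.PrimeDiv, x.map f = y.1 ∧ y.1 ⤳ z ∧ ∀ a, ord a y = P.ord (p a) := by
  have iff : ∀ g, g ∈ P.ring ↔ RegAt (p.symm g) (x.map f) := fun g => ⟨fun hg => by
    obtain ⟨a, ha, b, hb, b0, rfl⟩ := k g hg
    have m := fun c hc => (h.memZ (p.symm c)).1 (by rwa [p.apply_symm_apply]) _ hx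
    rw [map_div₀, div_eq_mul_inv]
    refine reg_mul (m a ha) (hp.un (m b hb) ?_)
    rw [p.apply_symm_apply]
    exact un_of_rd d ((h.mem _).1 hb x hx) b0, fun hg =>
      (d g (p.apply_symm_apply g ▸ hp.reg hg)).1⟩
  let e : Z.X.presheaf.stalk (f x) ≃+* P.ring := RingEquiv.ofBijective
    ((p.toRingHom.comp (toK (f x))).codRestrict P.ring fun a =>
      (iff _).2 ⟨a, (p.symm_apply_apply _).symm⟩)
    ⟨fun a b c => toK_injective _ (p.injective (congrArg Subtype.val c)), fun ⟨g, hg⟩ =>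
      let ⟨a, c⟩ := (iff g).1 hg; ⟨a, Subtype.ext (p.symm_apply_eq.1 c.symm).symm⟩⟩
  have := P.dvr
  have k3 := (ringKrullDim_eq_of_ringEquiv e).trans (IsDiscreteValuationRing.ringKrullDim_eq_one _)
  rw [ringKrullDim_stalk_eq_coheight] at k3
  have k4 : Pt.CodimOne (x.map f) := by exact_mod_cast k3
  refine ⟨⟨_, k4⟩, rfl, h.sp x hx fun a ha =>
    un_of_rd d ((h.mem _).1 a.2 x hx) (mt (hP.2 a) ha), fun a => ?_⟩
  have := (plc X Z p.symm (fun c => p.symm_apply_eq.2 (hp.cst hf.1 c).symm) ⟨_, k4⟩).2 P iff (p a)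
  rwa [p.symm_apply_apply] at this

/-- **the glue**, complete intersections -/
theorem glueC (q : ∀ c, Qb c) : Stm.Qc := by
  intro d c Q hd hQ ε hε
  obtain ⟨N, N1, hN⟩ := q c d Q hd hQ ε hε
  refine ⟨N, N1, fun X Z f ω B z D hdim hω hB hf ⟨p, hp⟩ ⟨m, g, m0, hg⟩ hz hD
    ⟨U, r, a, S, _, _, hU, zU, r0, ha, I, G, i, l, s, u, e⟩ => ?_⟩
  obtain ⟨A, χ, bs⟩ := exists_bs hf hp hU zU hz
  have := l.prime
  let _ := alg p i
  have := alg_tower i (Pb.cst hp hf.1)
  obtain ⟨F, hq⟩ := quo' hU zU l bs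
  obtain ⟨y, hy, ov⟩ := exists_over hq χ
  obtain ⟨s, rfl⟩ := Ideal.Quotient.mk_surjective s
  obtain ⟨v, hv⟩ := Ideal.Quotient.mk_surjective u.1
  obtain ⟨w, hw⟩ := Ideal.Quotient.mk_surjective u⁻¹.1
  have one : (1 : S) ∉ y := (Ideal.ne_top_iff_one _).1 hy.ne_top
  refine core hd hdim hω hB hf hp m0 hg hU zU bs N1 fun g g0 h1 h2 =>
    hN X.K _ S (qm I) F G A χ m g (ffd X _ hdim) hq m0 g0 h1
      ⟨r, p a, y, s, v, 1, r0, (map_ne_zero p).2 ha.1, hy, ov, fun k => one ?_, one, ?_,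
        fun P hP k => ?_⟩
  · have : 1 - v * w ∈ y := ov 0 _ (by
      change _ = algebraMap (S ⧸ I) _ (Ideal.Quotient.mk I _)
      rw [map_sub, map_mul, hv, hw, u.mul_inv, map_one, sub_self, map_zero]
      exact map_zero _) (map_zero _)
    simpa using add_mem this (y.mul_mem_right w k)
  · change i (p.symm (p a)) ^ Q * _ = _
    rw [p.symm_apply_apply, e, map_one, mul_one, map_mul, map_pow, ← hv]
    rfl
  · obtain ⟨E, hE, d, e⟩ := h2 P hP k
    obtain ⟨y, e1, e2, e3⟩ := bs.down hf hp hE d hP k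
    rw [Pi.neg_apply, e, neg_neg, ← e3, ← hD E y e1]
    exact_mod_cast ha.2 y e2

end Vale.Agent.P283R.Br
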