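import Vale.Agent.P283R.Br.Lc
import Vale.Agent.P283R.Stm3

/-!
# P283R: the glue for complete intersections, for a given index
-/

set_option linter.all false

open Set CategoryTheory AlgebraicGeometry
open Vale.Agent.P289 Vale.Agent.P289.H219 Vale.Agent.P270L Vale.Agent.P283M.Am Vale.Agent.P299.G

noncomputable section

namespace Vale.Agent.P283R.Br

open Vale.Agent.P287D Vale.Agent.P283M Vale.Agent.P283M.Br Vale.Agent.P283M.Stm.Var
open Vale.Agent.P283M.Stm (Contraction Pair HasKltComplement)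
open Vale.Agent.P297Z

/-- the body of `Qb c` for a given index `N` -/
def Bd (c d Q : ℕ) (ε : ℝ) (N : ℕ) : Prop :=
  ∀ (K L S : Type) [Field K] [Algebra ℂ K] [Field L] [Algebra ℂ L] [Algebra K L]
    [IsScalarTower ℂ K L] [CommRing S] [Algebra ℂ S] (q : S →ₐ[ℂ] L) (f : Fin c → S)
    (G : Subgroup (S ≃ₐ[ℂ] S)) (A : Subalgebra ℂ K) (χ : A →ₐ[ℂ] ℂ) (m : ℕ) (g : K),
    FF K d → Quo q f G A → 0 < m → g ≠ 0 →
    (∀ P, Thr A χ P → ε ≤ 1 + dsc d ((m : ℝ)⁻¹ • dv g) P) →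
    Cut Q q A χ (-dsc d ((m : ℝ)⁻¹ • dv g)) →
    ∃ φ : K, φ ≠ 0 ∧ ∀ P, Thr A χ P →
      (Prm A P → (m : ℝ)⁻¹ * dv g P ≤ (N : ℝ)⁻¹ * dv φ P) ∧ -1 < dsc d ((N : ℝ)⁻¹ • dv φ) P

/-- the tier statement with `N` independent of the codimension -/
def Qn : Prop := ∀ d Q : ℕ, 1 ≤ d → 1 ≤ Q → ∀ ε : ℝ, 0 < ε → ∃ N : ℕ, 1 ≤ N ∧ ∀ c, Bd c d Q ε N

/-- **the glue** for a given index -/
theorem glueB {c d Q N : ℕ} {ε : ℝ} (hd : 1 ≤ d) (N1 : 1 ≤ N) (hN : Bd c d Q ε N)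
    (X Z : Stm.Var) (f : X.X ⟶ Z.X) (ω : DForm ℂ X.K d) (B : X.QDiv) (z : Pt Z.X)
    (D : Z.PrimeDiv → ℚ) (hdim : dimension X.str = d) (hω : ω.Nonzero)
    (hB : Pair (ε ≤ ·) ⊤ ω B) (hf : Contraction f) (hp : P283R.Stm.Birational f)
    (hg : ∃ m g, 0 < m ∧ ∀ x : Pt X.X, x.map f = z → LocalEq (logCan ω B) m g x)
    (hz : IsClosed ({z} : Set (Pt Z.X)))
    (hD : ∀ (E : X.PrimeDiv) (y : Z.PrimeDiv), E.1.map f = y.1 → D y = B E)
    (hc : P283R.Stm.LciqCut c Q Z z D) : HasKltComplement f ω B N z := by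
  obtain ⟨p, hp⟩ := hp
  obtain ⟨m, g, m0, hg⟩ := hg
  obtain ⟨U, r, a, S, _, _, hU, zU, r0, ha, I, G, i, l, s, u, e⟩ := hc
  obtain ⟨A, χ, bs⟩ := exists_bs hf hp hU zU hz
  have := l.prime
  let _ := alg p i
  have := alg_tower i (Pb.cst hp hf.1)
  obtain ⟨F, hq⟩ := quo' hU zU l bs
  obtain ⟨y, hy, ov⟩ := exists_over hq χ
  obtain ⟨s, rfl⟩ := Ideal.Quotient.mk_surjective s
  obtain ⟨v, hv⟩ := Ideal.Quotient.mk_surjective u.1
  obtain ⟨w, hw⟩ := Ideal.Quotient.mk_surjective u⁻¹.1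
  have one : (1 : S) ∉ y := (Ideal.ne_top_iff_one _).1 hy.ne_top
  refine core hd hdim hω hB hf hp m0 hg hU zU bs N1 fun g g0 h1 h2 =>
    hN X.K _ S (qm I) F G A χ m g (ffd X _ hdim) hq m0 g0 h1
      ⟨r, p a, y, s, v, 1, r0, (map_ne_zero p).2 ha.1, hy, ov, fun k => one ?_, one, ?_,
        fun P hP k => ?_⟩
  · have : 1 - v * w ∈ y := ov 0 _ (by
      change _ = algebraMap (S ⧸ I) _ (Ideal.Quotient.mk I _)
      rw [map_sub, map_mul, hv, hw, u.mul_inv, map_one, sub_self, map_zero]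
      exact map_zero _) (map_zero _)
    simpa using add_mem this (y.mul_mem_right w k)
  · change i (p.symm (p a)) ^ Q * _ = _
    rw [p.symm_apply_apply, e, map_one, mul_one, map_mul, map_pow, ← hv]
    rfl
  · obtain ⟨E, hE, d, e⟩ := h2 P hP k
    obtain ⟨y, e1, e2, e3⟩ := bs.down hf hp hE d hP k
    rw [Pi.neg_apply, e, neg_neg, ← e3, ← hD E y e1]
    exact_mod_cast ha.2 y e2

/-- **the glue**, `n` independent of the codimension -/
theorem glueU (q : Qn) : Stm.Qu := fun d Q hd hQ ε hε =>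
  let ⟨N, N1, hN⟩ := q d Q hd hQ ε hε
  ⟨N, N1, fun c => glueB hd N1 (hN c)⟩

end Vale.Agent.P283R.Br
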